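import Vale.Agent.P195.Model.Cells

/-!
P195: the statement of the orthogonality seat: the scalar complex `Hom(cells, Y)` is exact in
positive degrees. `Y` is `k` at the vertices `(0, b)`; only pure powers of `t` act on it.
-/

namespace P195.Orth

open P195.Algebra P195.Model

variable (k : Type) [Field k]

/-- The action on `Y`: `t ↦ 1`, every generator `↦ 0`. -/
noncomputable def augF : F k →ₐ[k] k :=
  ext (1 : k) (fun _ => 0) fun _ => Commute.all _ _

/-- The coboundary of the scalar complex. -/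
noncomputable def scd (f : Pre → k) (c : Pre) : k :=
  (DL k c.1 c.2.1 c.2.2).sum fun p a => augF k (Lam.re k a) * f p

/-- A scalar cochain of degree `E`. -/
def IsScalar (E : ℤ) (f : Pre → k) : Prop :=
  ∀ c, f c ≠ 0 → Ok c.1 c.2.1 c.2.2 ∧ vA c = 0 ∧ (pdeg c : ℤ) = E

/-- Exactness in degree `E`. -/
def ScalarExact (E : ℤ) : Prop :=
  ∀ f, IsScalar k E f → (∀ c, Ok c.1 c.2.1 c.2.2 → vA c = 0 → scd k f c = 0) →
    ∃ g, IsScalar k (E - 1) g ∧ ∀ c, Ok c.1 c.2.1 c.2.2 → vA c = 0 → scd k g c = f c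

/- To be proved in `Orth/Exact.lean`:
theorem scalarExact [CharZero k] (E : ℤ) (hE : 0 < E) : ScalarExact k E
-/

end P195.Orth
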