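import Vale.Agent.P195.Orth.Weyl
import Vale.Agent.P195.Model.Square

/-!
# P195, orthogonality seat: the scalar complex is exact in positive degrees

Cochains with values in the weight `m` on chains of `n` bimodule cells: one correction makes a
cocycle lie in the image of `iota`, so it becomes a cocycle of weight `m + 1` on chains of
`n - 1` cells; at the end one layer of six cells in positive weight is exact.
-/

namespace P195.Orth

open P195.Algebra P195.Model

variable (k : Type) [Field k]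

/-- A cochain applied to a row of coefficients. -/
noncomputable def ev (φ : Pre → W k) : (Pre →₀ Lam k) →ₗ[k] W k :=
  Finsupp.lsum k fun p =>
    LinearMap.applyₗ (φ p) ∘ₗ (rho k).toLinearMap ∘ₗ Lam.re k

theorem fin_cases2 (a : Fin 2) : a = 0 ∨ a = 1 := by revert a; decide

theorem ev_single (φ : Pre → W k) (p : Pre) (a : Lam k) :
    ev k φ (Finsupp.single p a) = rho k (Lam.re k a) (φ p) := by
  rw [ev, Finsupp.lsum_single]; rfl

theorem ev_apply (φ : Pre → W k) (v : Pre →₀ Lam k) :
    ev k φ v = v.sum fun p a => rho k (Lam.re k a) (φ p) := rfl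

/-- The coboundary with values in a weight. -/
noncomputable def delta (φ : Pre → W k) (c : Pre) : W k := ev k φ (DL k c.1 c.2.1 c.2.2)

theorem delta_apply (φ : Pre → W k) (c : Pre) : delta k φ c
    = (DL k c.1 c.2.1 c.2.2).sum fun p a => rho k (Lam.re k a) (φ p) := rfl

theorem delta_congr {φ ψ : Pre → W k} {c : Pre}
    (h : ∀ p, DL k c.1 c.2.1 c.2.2 p ≠ 0 → φ p = ψ p) : delta k φ c = delta k ψ c := by
  simp only [delta_apply]
  exact Finsupp.sum_congr fun p hp => by rw [h p (Finsupp.mem_support_iff.1 hp)]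

theorem delta_add (φ ψ : Pre → W k) (c : Pre) :
    delta k (φ + ψ) c = delta k φ c + delta k ψ c := by
  simp only [delta_apply, Pi.add_apply, map_add, Finsupp.sum_add]

theorem delta_sub (φ ψ : Pre → W k) (c : Pre) :
    delta k (φ - ψ) c = delta k φ c - delta k ψ c := by
  simp only [delta_apply, Pi.sub_apply, map_sub, Finsupp.sum_sub]

/-- A monomial in the representation. -/
theorem rho_supD {a' a : Fin 2} {Δ n : ℤ} {x : F k} (hx : x ∈ supD k a' a Δ n) {m : ℕ} {v : W k}
    (hv : v ∈ comp k m a) : rho k x v ∈ comp k m a' ∧ (n ≠ 0 → rho k x v = 0) := by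
  rw [← MonoidAlgebra.sum_coeff_single x, map_finsuppSum, Finsupp.sum]
  simp only [LinearMap.sum_apply]
  have key : ∀ m' ∈ x.coeff.support,
      rho k (MonoidAlgebra.single m' (x.coeff m')) v ∈ comp k m a' ∧
        (n ≠ 0 → rho k (MonoidAlgebra.single m' (x.coeff m')) v = 0) := by
    intro m' hm
    obtain ⟨hp, -, hd⟩ := (MonoidAlgebra.mem_supported.1 hx) hm
    obtain ⟨w, e⟩ := m'
    have e' : MonoidAlgebra.single ((w, e) : M) (x.coeff (w, e))
        = x.coeff (w, e) • (MonoidAlgebra.single ((w, 1) : M) 1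
            * tF k ^ (Multiplicative.toAdd e)) := by
      simp only [tF, tt, MonoidAlgebra.single_pow, MonoidAlgebra.single_mul_single,
        MonoidAlgebra.smul_single]
      simp [← ofAdd_nsmul]
    rw [e', map_smul, map_mul, map_pow, rho_tF, one_pow, mul_one, LinearMap.smul_apply]
    have h := rho_word k (FreeMonoid.toList w) hp hv
    simp only [FreeMonoid.ofList_toList] at h
    refine ⟨Submodule.smul_mem _ _ h.1, fun hn => ?_⟩
    rw [h.2 fun h0 => hn (by rw [← hd]; simp [mdeg, h0]), LinearMap.zero_apply, smul_zero]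
  exact ⟨Submodule.sum_mem _ fun m' hm => (key m' hm).1,
    fun hn => Finset.sum_eq_zero fun m' hm => (key m' hm).2 hn⟩

/-- The coboundary stays in the weight. -/
theorem delta_comp {m : ℕ} {φ : Pre → W k} (hφ : ∀ p, φ p ∈ comp k m (vA p)) {c : Pre}
    (hc : Ok c.1 c.2.1 c.2.2) : delta k φ c ∈ comp k m (vA c) :=
  Submodule.sum_mem _ fun p _ => (rho_supD k (DL_supD k hc p).1 (hφ p)).1

/-- The coboundary squares to zero. -/
theorem delta_delta (g : Pre → W k) {c : Pre} (hc : Ok c.1 c.2.1 c.2.2) :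
    delta k (delta k g) c = 0 := by
  have h := congrArg (ev k g) (DL_sq k hc)
  rw [map_add, map_zero, map_finsuppSum] at h
  have e1 : ev k g ((DL k c.1 c.2.1 c.2.2).mapRange (dL k) (map_zero _)) = 0 := by
    rw [ev_apply, Finsupp.sum_mapRange_index (fun _ => by simp)]
    exact Finset.sum_eq_zero fun p _ => by simp [rho_dF]
  have e2 : ∀ q a, ev k g ((DL k q.1 q.2.1 q.2.2).mapRange (sgL k a * ·) (mul_zero _))
      = rho k (Lam.re k a) (delta k g q) := by
    intro q a
    rw [ev_apply, Finsupp.sum_mapRange_index (fun _ => by simp), delta_apply, map_finsuppSum]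
    refine Finsupp.sum_congr fun p _ => ?_
    simp [rho_sg]
  rw [e1, zero_add] at h
  simp only [e2] at h
  exact h

/-- The values on the cells `l :: r`. -/
def rowOf (φ : Pre → W k) (r : Pre) : LC → W k := fun l => φ (l :: r.1, r.2)

theorem ev_push (φ : Pre → W k) (l : LC) (r : Pre) (X : Matrix LC LC (Lam k)) :
    ev k φ (push k l r X) = ∑ l', rho k (Lam.re k (X l l')) (rowOf k φ r l') := by
  rw [push_apply, map_sum]
  exact Finset.sum_congr rfl fun l' _ => ev_single k φ _ _

theorem delta_cons (φ : Pre → W k) (l : LC) (ls : List LC) (j : ℕ) (b : BC) :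
    delta k φ (l :: ls, j, b)
      = -(∑ l', rho k (Lam.re k (Nm k l l')) (rowOf k φ (ls, j, b) l'))
        - LC.sgn k l • (DL k ls j b).sum fun p a =>
            ∑ l', rho k (Mre k (Lam.re k a) l l') (rowOf k φ p l') := by
  rw [delta, DL_cons, map_sub, map_neg, map_finsuppSum, ev_push, Finsupp.smul_sum]
  refine congrArg₂ _ rfl (Finsupp.sum_congr fun p _ => ?_)
  rw [ev_push, Finset.smul_sum]
  refine Finset.sum_congr rfl fun l' _ => ?_
  simp [kick_apply, Jm, Matrix.diagonal_mul, re_phiL, rho_sg]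

theorem delta_H (φ : Pre → W k) (ls : List LC) (j : ℕ) (b : BC) :
    delta k φ (.H :: ls, j, b)
      = opX k 0 (φ (.F 1 :: ls, j, b)) - opX k 1 (φ (.F 0 :: ls, j, b))
        + (DL k ls j b).sum fun p a => augF k (Lam.re k a) • φ (.H :: p.1, p.2) := by
  rw [delta_cons, sum_cells]
  have h : ∀ (p : Pre) (a : Lam k), (∑ l', rho k (Mre k (Lam.re k a) .H l') (rowOf k φ p l'))
      = augF k (Lam.re k a) • φ (.H :: p.1, p.2) := fun p a => by
    rw [sum_cells]
    simp [rho_Mre_H, rowOf, Module.algebraMap_end_apply]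
  simp only [h]
  simp [Nm, rowOf, gX, rhoGen, LC.sgn, LC.deg]
  abel

theorem delta_iota {φ ψ : Pre → W k} (h : ∀ r, rowOf k φ r = iota k (ψ r)) (l : LC) (ls : List LC)
    (j : ℕ) (b : BC) : delta k φ (l :: ls, j, b) = -iota k (delta k ψ (ls, j, b)) l := by
  rw [delta_cons]
  simp only [h, rho_Mre_iota]
  rw [delta_apply, map_finsuppSum]
  simp only [Finsupp.sum, Finset.sum_apply]
  rcases l with _ | i | _
  · simp [Nm, sum_cells, LC.sgn, LC.deg]
  · simp [Nm, sum_cells, LC.sgn, LC.deg]
  · simp [Nm, sum_cells, gX, rhoGen, pderiv_comm' (0 : Fin 2) 1]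

theorem delta_nil (φ : Pre → W k) (j : ℕ) (b : BC) :
    delta k φ ([], j, b) = layer k (fun j b => φ ([], j, b)) j b := by
  rw [delta, DL, dTower, map_add, map_add, ev_single]
  rcases b with _ | i | i | _ <;>
    simp only [dBase, map_add, map_sub, map_neg, map_zero, ev_single, apply_ite (ev k φ)] <;>
    simp [layer, rhoGen, gX, gP, gR, gQ, gZ, Lam.u]
  all_goals first
    | abel
    | (split_ifs <;> abel)

/-- A cochain of weight `m` on chains of `n` bimodule cells. -/
def Coch (m n : ℕ) (φ : Pre → W k) : Prop :=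
  ∀ c, φ c ∈ comp k m (vA c) ∧ (φ c ≠ 0 → Ok c.1 c.2.1 c.2.2 ∧ c.1.length = n)

/-- The condition that `φ` is closed. -/
def Closed (n : ℕ) (φ : Pre → W k) : Prop :=
  ∀ c : Pre, Ok c.1 c.2.1 c.2.2 → c.1.length = n → delta k φ c = 0

theorem layer_case [CharZero k] {m : ℕ} (hm : 0 < m) {φ : Pre → W k} (hφ : Coch k m 0 φ)
    (h : Closed k 0 φ) :
    ∃ g, Coch k m 0 g ∧ ∀ c : Pre, Ok c.1 c.2.1 c.2.2 → c.1.length = 0 → delta k g c = φ c := by
  obtain ⟨g, hg, hgφ⟩ := layer_exact k hm (fun j b => φ ([], j, b))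
    (fun j b => (hφ ([], j, b)).1)
    (fun j b => by rw [← delta_nil]; exact h ([], j, b) trivial rfl)
  refine ⟨fun c => if c.1 = [] then g c.2.1 c.2.2 else 0, fun c => ?_, fun c hc hl => ?_⟩
  · obtain ⟨ls, j, b⟩ := c
    rcases ls with - | ⟨l, ls⟩
    · simp only [if_true]
      exact ⟨hg j b, fun _ => ⟨trivial, rfl⟩⟩
    · simp [zero_mem]
  · obtain ⟨ls, j, b⟩ := c
    obtain rfl : ls = [] := List.eq_nil_of_length_eq_zero hl
    rw [delta_nil]
    simpa using hgφ j b

/-- The value of the correction on a chain starting with the cell `F i`. -/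
noncomputable def fix1 (m : ℕ) (φ : Pre → W k) : Pre → W k
  | (.F i :: ls, j, b) =>
      (((m + 1 : ℤ) : k)⁻¹ • (if i = 1 then MvPolynomial.X 0 * (φ (.H :: ls, j, b)).2
        else -(MvPolynomial.X 1 * (φ (.H :: ls, j, b)).2)), 0)
  | _ => 0

theorem fix1_coch {m n : ℕ} {φ : Pre → W k} (hφ : Coch k m (n + 1) φ) :
    Coch k m (n + 1) (fix1 k m φ) := by
  rintro ⟨ls, j, b⟩
  rcases ls with - | ⟨(_ | i | _), ls⟩ <;> try (simp [fix1, zero_mem]; done)
  have h2 := ((mem_comp1 k).1 (hφ (.H :: ls, j, b)).1).2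
  refine ⟨(mem_comp0 k).2 ⟨Submodule.smul_mem _ _ ?_, rfl⟩, fun hne => ?_⟩
  · split_ifs
    · simpa using X_mul_mem h2 0
    · exact neg_mem (by simpa using X_mul_mem h2 1)
  · have hH : φ (.H :: ls, j, b) ≠ 0 := fun h0 => hne (by simp [fix1, h0])
    obtain ⟨⟨h1, h1'⟩, hlen⟩ := (hφ _).2 hH
    exact ⟨⟨h1, h1'⟩, hlen⟩

theorem delta_fix1 [CharZero k] {m n : ℕ} {φ : Pre → W k} (hφ : Coch k m (n + 1) φ)
    (ls : List LC) (j : ℕ) (b : BC) :
    delta k (fix1 k m φ) (.H :: ls, j, b) = φ (.H :: ls, j, b) := by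
  obtain ⟨h1, h2⟩ := (mem_comp1 k).1 (hφ (.H :: ls, j, b)).1
  have hd := div_euler h2
  rw [show (m : ℤ) - 1 + 2 = (m : ℤ) + 1 by ring] at hd
  rw [delta_H]
  refine Prod.ext ?_ ?_
  · simp [fix1, h1]
  · simp only [fix1, smul_zero, Finsupp.sum, Finset.sum_const_zero, add_zero, Prod.snd_sub,
      opX_apply, Derivation.map_smul, if_true, zero_ne_one, if_false, Fin.isValue, map_neg,
      smul_neg, sub_neg_eq_add]
    rw [← smul_add, hd, inv_smul_smul₀ (cast_ne (by omega))]

/-- A closed cochain without `H`-values comes from the next weight. -/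
theorem exists_lift [CharZero k] {m n : ℕ} {φ : Pre → W k} (hφ : Coch k m (n + 1) φ)
    (hH : ∀ r : Pre, φ (.H :: r.1, r.2) = 0) (hcl : Closed k (n + 1) φ) :
    ∃ ψ, Coch k (m + 1) n ψ ∧ Closed k n ψ ∧ ∀ r, rowOf k φ r = iota k (ψ r) := by
  have hz : ∀ (l : LC) (r : Pre), LC.rv l ≠ vA r → φ (l :: r.1, r.2) = 0 := fun l r h => by
    by_contra hne
    exact h ((hφ _).2 hne).1.1
  set s : k := ((m + 1 : ℤ) : k)⁻¹
  have hs : ((m + 1 : ℤ) : k) ≠ 0 := cast_ne (by omega)
  let u : Pre → Fin 2 → Poly k := fun r i => (φ (.F i :: r.1, r.2)).1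
  have hu : ∀ r i, u r i ∈ Hm k (m : ℤ) ∧ (φ (.F i :: r.1, r.2)).2 = 0 := fun r i =>
    (mem_comp0 k).1 (hφ (.F i :: r.1, r.2)).1
  have hcurl : ∀ r : Pre, MvPolynomial.pderiv 0 (u r 1) = MvPolynomial.pderiv 1 (u r 0) := by
    intro r
    by_cases hok : Ok (.H :: r.1) r.2.1 r.2.2 ∧ r.1.length = n
    · have h := hcl (.H :: r.1, r.2.1, r.2.2) hok.1 (by simp [hok.2])
      rw [delta_H] at h
      have h' := congrArg Prod.snd h
      simp only [hH, smul_zero, Finsupp.sum, Finset.sum_const_zero, add_zero, Prod.snd_sub,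
        opX_apply, Prod.snd_zero] at h'
      exact sub_eq_zero.1 h'
    · have h0 : ∀ i, u r i = 0 := fun i => by
        by_contra hne
        obtain ⟨⟨h1, h1'⟩, hlen⟩ := (hφ (.F i :: r.1, r.2)).2 fun e => hne (by simp [u, e])
        exact hok ⟨⟨h1, h1'⟩, by simpa using hlen⟩
      simp [h0]
  let ψ : Pre → W k := fun r => if vA r = 0 then
      (s • (MvPolynomial.X 0 * u r 0 + MvPolynomial.X 1 * u r 1), 0)
    else (0, (φ (.E :: r.1, r.2)).1)
  have hrow : ∀ r, rowOf k φ r = iota k (ψ r) := by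
    intro r
    funext l
    rcases fin_cases2 (vA r) with hv | hv
    · rcases l with _ | i | _
      · simp [ψ, rowOf, hv, hz .E r (by simp [LC.rv, hv]), ← Prod.zero_eq_mk]
      · simp only [ψ, rowOf, if_pos hv, iota_F, Derivation.map_smul]
        rw [poincare (u r) (fun i => (hu r i).1) (hcurl r) i, inv_smul_smul₀ hs]
        exact Prod.ext rfl (hu r i).2
      · simp [rowOf, hH]
    · rcases l with _ | i | _
      · simp [ψ, rowOf, hv]
        exact Prod.ext rfl ((mem_comp0 k).1 (hφ (.E :: r.1, r.2)).1).2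
      · simp [ψ, rowOf, hv, hz (.F i) r (by simp [LC.rv, hv]), ← Prod.zero_eq_mk]
      · simp [rowOf, hH]
  have hψc : ∀ r, ψ r ∈ comp k (m + 1) (vA r) := by
    intro r
    rcases fin_cases2 (vA r) with hv | hv
    · simp only [ψ, if_pos hv]
      rw [hv, mem_comp0]
      refine ⟨Submodule.smul_mem _ _ (add_mem ?_ ?_), rfl⟩
      · simpa using X_mul_mem (hu r 0).1 0
      · simpa using X_mul_mem (hu r 1).1 1
    · simp only [ψ, hv, one_ne_zero, if_false]
      rw [mem_comp1]
      refine ⟨rfl, ?_⟩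
      have := ((mem_comp0 k).1 (hφ (.E :: r.1, r.2)).1).1
      simpa using this
  refine ⟨ψ, fun r => ⟨hψc r, fun hne => ?_⟩, fun r hr hlen => ?_, hrow⟩
  · by_contra hnot
    have h0 : ∀ l : LC, φ (l :: r.1, r.2) = 0 := fun l => by
      by_contra h1
      exact hnot ⟨((hφ _).2 h1).1.2, by simpa using ((hφ _).2 h1).2⟩
    exact hne (by simp [ψ, u, h0])
  · obtain ⟨ls, j, b⟩ := r
    have hd := delta_comp k hψc (c := (ls, j, b)) hr
    have hi : ∀ l : LC, LC.rv l = vA (ls, j, b) → iota k (delta k ψ (ls, j, b)) l = 0 := by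
      intro l hl
      have h := hcl (l :: ls, j, b) ⟨hl, hr⟩ (by simpa using hlen)
      rw [delta_iota k hrow, neg_eq_zero] at h
      exact h
    rcases fin_cases2 (vA (ls, j, b)) with hv | hv
    · rw [hv] at hd
      obtain ⟨h1, h2⟩ := (mem_comp0 k).1 hd
      have e : ∀ i, MvPolynomial.pderiv i (delta k ψ (ls, j, b)).1 = 0 := fun i =>
        congrArg Prod.fst (hi (.F i) (by simpa [LC.rv] using hv.symm))
      have := euler h1
      rw [e, e, mul_zero, mul_zero, add_zero] at this
      exact Prod.ext ((smul_eq_zero.1 this.symm).resolve_left (cast_ne (by omega))) h2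
    · rw [hv] at hd
      obtain ⟨h1, -⟩ := (mem_comp1 k).1 hd
      exact Prod.ext h1 (congrArg Prod.fst (hi .E (by simpa [LC.rv] using hv.symm)))

/-- The values of `-iota` of a cochain of the next weight. -/
noncomputable def up (χ : Pre → W k) : Pre → W k
  | (l :: ls, j, b) => -iota k (χ (ls, j, b)) l
  | _ => 0

theorem up_coch {m n : ℕ} {χ : Pre → W k} (hχ : Coch k (m + 1) n χ) :
    Coch k m (n + 1) (up k χ) := by
  rintro ⟨ls, j, b⟩
  rcases ls with - | ⟨l, ls⟩
  · simp [up, zero_mem]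
  obtain ⟨hc, hok⟩ := hχ (ls, j, b)
  rcases fin_cases2 (vA (ls, j, b)) with hv | hv
  · rw [hv] at hc
    obtain ⟨h1, h2⟩ := (mem_comp0 k).1 hc
    rcases l with _ | i | _ <;> try (simp [up, h2, zero_mem, ← Prod.zero_eq_mk]; done)
    refine ⟨neg_mem ((mem_comp0 k).2 ⟨?_, rfl⟩), fun hne => ?_⟩
    · simpa using pderiv_mem h1 i
    · have := hok fun e => hne (by simp [up, e])
      exact ⟨⟨by simpa [LC.rv] using hv.symm, this.1⟩, by simp [this.2]⟩
  · rw [hv] at hc
    obtain ⟨h1, h2⟩ := (mem_comp1 k).1 hc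
    rcases l with _ | i | _ <;> try (simp [up, h1, zero_mem, ← Prod.zero_eq_mk]; done)
    refine ⟨neg_mem ((mem_comp0 k).2 ⟨?_, rfl⟩), fun hne => ?_⟩
    · simpa using h2
    · have := hok fun e => hne (by simp [up, e])
      exact ⟨⟨by simpa [LC.rv] using hv.symm, this.1⟩, by simp [this.2]⟩

/-- Exactness on chains of a fixed length, in all degrees. -/
theorem chain_exact [CharZero k] : ∀ (n m : ℕ), 0 < m + n → ∀ φ, Coch k m n φ → Closed k n φ →
    ∃ g, Coch k m n g ∧ ∀ c : Pre, Ok c.1 c.2.1 c.2.2 → c.1.length = n → delta k g c = φ c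
  | 0, m, hm, φ, hφ, h => layer_case k (by omega) hφ h
  | n + 1, m, _, φ, hφ, h => by
    classical
    have hg1 := fix1_coch k hφ
    set g1 := fix1 k m φ with hg1def
    let φ1 : Pre → W k := fun c =>
      if Ok c.1 c.2.1 c.2.2 ∧ c.1.length = n + 1 then φ c - delta k g1 c else 0
    have hφ1 : Coch k m (n + 1) φ1 := fun c => by
      by_cases hc : Ok c.1 c.2.1 c.2.2 ∧ c.1.length = n + 1
      · simp only [φ1, if_pos hc]
        exact ⟨sub_mem (hφ c).1 (delta_comp k (fun p => (hg1 p).1) hc.1), fun _ => hc⟩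
      · simp [φ1, if_neg hc, zero_mem]
    have hH : ∀ r : Pre, φ1 (.H :: r.1, r.2) = 0 := fun r => by
      simp only [φ1]
      split_ifs
      · rw [hg1def, show (LC.H :: r.1, r.2) = (LC.H :: r.1, r.2.1, r.2.2) from rfl,
          delta_fix1 k hφ, sub_self]
      · rfl
    have hcl : Closed k (n + 1) φ1 := fun c hc hlen => by
      have e : delta k φ1 c = delta k (φ - delta k g1) c := delta_congr k fun p hp => by
        obtain ⟨h1, h2⟩ := DL_sup k hc hp
        simp only [φ1, if_pos (And.intro h1 (h2.trans hlen)), Pi.sub_apply]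
      rw [e, delta_sub, h c hc hlen, delta_delta k g1 hc, sub_zero]
    obtain ⟨ψ, hψ, hψcl, hrow⟩ := exists_lift k hφ1 hH hcl
    obtain ⟨χ, hχ, hχψ⟩ := chain_exact n (m + 1) (by omega) ψ hψ hψcl
    have hup := up_coch k hχ
    refine ⟨g1 + up k χ, fun c => ⟨add_mem (hg1 c).1 (hup c).1, fun hne => ?_⟩, ?_⟩
    · by_cases h1 : g1 c = 0
      · exact (hup c).2 fun h2 => hne (by simp [h1, h2])
      · exact (hg1 c).2 h1
    · rintro ⟨ls, j, b⟩ hc hlen
      rcases ls with - | ⟨l, ls⟩
      · simp at hlen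
      have hrowχ : ∀ r, rowOf k (up k χ) r = iota k (-χ r) := fun r => by
        funext l'
        obtain ⟨ls', j', b'⟩ := r
        simp [rowOf, up, map_neg]
      rw [delta_add, delta_iota k hrowχ]
      have e : delta k (fun r => -χ r) (ls, j, b) = -ψ (ls, j, b) := by
        rw [← hχψ (ls, j, b) hc.2 (by simpa using hlen)]
        simp [delta_apply, Finsupp.sum]
      rw [e, map_neg, Pi.neg_apply, neg_neg, ← hrow]
      simp only [rowOf, φ1]
      rw [if_pos ⟨hc, hlen⟩]
      abel

/-- A scalar cochain on chains of length `n`, as a cochain of weight zero. -/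
noncomputable def const (n : ℕ) (f : Pre → k) (c : Pre) : W k :=
  if c.1.length = n then (MvPolynomial.C (f c), 0) else 0

theorem delta_const (n : ℕ) (f : Pre → k) {c : Pre} (hc : Ok c.1 c.2.1 c.2.2)
    (hlen : c.1.length = n) : delta k (const k n f) c = (MvPolynomial.C (scd k f c), 0) := by
  rw [delta_apply, scd]
  rw [show (MvPolynomial.C ((DL k c.1 c.2.1 c.2.2).sum fun p a => augF k (Lam.re k a) * f p), 0)
      = (LinearMap.inl k (Poly k) (Poly k)) (MvPolynomial.C
          ((DL k c.1 c.2.1 c.2.2).sum fun p a => augF k (Lam.re k a) * f p)) from rfl,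
    map_finsuppSum, map_finsuppSum]
  refine Finsupp.sum_congr fun p hp => ?_
  obtain ⟨-, h2⟩ := DL_sup k hc (Finsupp.mem_support_iff.1 hp)
  simp only [const, if_pos (h2.trans hlen), rho_const, LinearMap.inl_apply]

theorem mem_comp_zero {a : Fin 2} {w : W k} (hw : w ∈ comp k 0 a) :
    w = (MvPolynomial.C (w.1.coeff 0), 0) ∧ (a = 1 → w = 0) := by
  rcases fin_cases2 a with rfl | rfl
  · obtain ⟨h1, h2⟩ := (mem_comp0 k).1 hw
    rw [mem_Hm, ← MvPolynomial.totalDegree_zero_iff_isHomogeneous,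
      MvPolynomial.totalDegree_eq_zero_iff_eq_C] at h1
    exact ⟨Prod.ext h1 h2, fun h => absurd h (by decide)⟩
  · obtain ⟨h1, h2⟩ := (mem_comp1 k).1 hw
    rw [mem_Hm_neg (by simp)] at h2
    have : w = 0 := Prod.ext h1 h2
    exact ⟨by simp [this, ← Prod.zero_eq_mk], fun _ => this⟩

theorem const_coch {n : ℕ} {E : ℤ} {f : Pre → k} (hf : IsScalar k E f) :
    Coch k 0 n (const k n f) := by
  intro c
  simp only [const]
  split_ifs with hl
  · by_cases h : f c = 0
    · simp [h, zero_mem, ← Prod.zero_eq_mk]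
    · obtain ⟨hok, hv, -⟩ := hf c h
      refine ⟨?_, fun _ => ⟨hok, hl⟩⟩
      rw [hv, mem_comp0]
      exact ⟨mem_Hm.2 (MvPolynomial.isHomogeneous_C _ _), rfl⟩
  · simp [zero_mem]

/-- On each length the scalar cochain bounds. -/
theorem const_exact [CharZero k] {E : ℤ} (hE : 0 < E) {f : Pre → k} (hf : IsScalar k E f)
    (h : ∀ c, Ok c.1 c.2.1 c.2.2 → vA c = 0 → scd k f c = 0) (n : ℕ) :
    ∃ g, Coch k 0 n g ∧
      ∀ c : Pre, Ok c.1 c.2.1 c.2.2 → c.1.length = n → delta k g c = const k n f c := by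
  have hco := const_coch k (n := n) hf
  have hcl : Closed k n (const k n f) := fun c hc hlen => by
    rw [delta_const k n f hc hlen]
    rcases fin_cases2 (vA c) with hv | hv
    · simp [h c hc hv]
    · have h1 := delta_comp k (fun p => (hco p).1) hc
      rw [delta_const k n f hc hlen, hv] at h1
      exact (mem_comp_zero k h1).2 rfl
  rcases n with - | n
  · have hv : ∀ (j : ℕ) (b : BC), b.vtx.1 = 1 → f ([], j, b) = 0 := fun j b hb => by
      by_contra hne
      have := (hf _ hne).2.1
      simp [vA, hb] at this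
    have hc0 : ∀ j, f ([], j, .c0) = 0 := by
      intro j
      rcases j with - | j
      · by_contra hne
        have := (hf _ hne).2.2
        simp [pdeg, BC.deg] at this
        omega
      · have h1 := hcl ([], j, .cz) trivial rfl
        rw [delta_nil] at h1
        simp [layer, const] at h1
        exact h1
    refine ⟨fun c => match c with
      | ([], j + 1, .c0) => (MvPolynomial.C (f ([], j, .cz)), 0)
      | _ => 0, fun c => ?_, ?_⟩
    · obtain ⟨ls, j, b⟩ := c
      rcases ls with - | ⟨l, ls⟩ <;> rcases j with - | j <;> rcases b with _ | i | i | _ <;>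
        try (simp [zero_mem]; done)
      refine ⟨(mem_comp0 k).2 ⟨mem_Hm.2 (MvPolynomial.isHomogeneous_C _ _), rfl⟩,
        fun _ => ⟨trivial, rfl⟩⟩
    · rintro ⟨ls, j, b⟩ _ hlen
      obtain rfl : ls = [] := List.eq_nil_of_length_eq_zero hlen
      rw [delta_nil]
      have hcx : ∀ j i, f ([], j, .cx i) = 0 := fun j i => hv j _ rfl
      have hcr : ∀ j i, f ([], j, .cr i) = 0 := fun j i => hv j _ rfl
      rcases b with _ | i | i | _ <;> rcases j with - | j <;>
        simp [layer, const, hc0, hcx, hcr, ← Prod.zero_eq_mk]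
  · exact chain_exact k (n + 1) 0 (by omega) _ hco hcl

/-- The statement of the seat. -/
theorem scalarExact [CharZero k] (E : ℤ) (hE : 0 < E) : ScalarExact k E := by
  intro f hf h
  choose G hG hGf using const_exact k hE hf h
  classical
  refine ⟨fun c => if (pdeg c : ℤ) = E - 1 then (G c.1.length c).1.coeff 0 else 0,
    fun c hc => ?_, fun c hc hv => ?_⟩
  · by_cases hp : (pdeg c : ℤ) = E - 1
    · simp only [if_pos hp] at hc
      have hne : G c.1.length c ≠ 0 := fun h0 => hc (by simp [h0])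
      refine ⟨((hG _ c).2 hne).1, ?_, hp⟩
      by_contra hv
      exact hne ((mem_comp_zero k (hG _ c).1).2 (Fin.eq_one_of_ne_zero _ hv))
    · simp [hp] at hc
  · set n := c.1.length with hn
    by_cases hp : (pdeg c : ℤ) = E
    · have key : delta k (G n) c = (MvPolynomial.C (scd k
          (fun p => if (pdeg p : ℤ) = E - 1 then (G p.1.length p).1.coeff 0 else 0) c), 0) := by
        rw [← delta_const k n _ hc rfl, delta_apply, delta_apply]
        refine Finsupp.sum_congr fun p hpp => ?_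
        obtain ⟨-, h2⟩ := DL_sup k hc (Finsupp.mem_support_iff.1 hpp)
        by_cases hd : (pdeg p : ℤ) = E - 1
        · simp only [const, if_pos hd, h2, hn, if_true]
          rw [← (mem_comp_zero k (hG n p).1).1]
        · have hsd := (DL_supD k hc p).1
          have hne : (pdeg c : ℤ) - 1 - pdeg p ≠ 0 := by omega
          rw [(rho_supD k hsd (hG n p).1).2 hne]
          simp [const, if_pos h2, if_neg hd, ← Prod.zero_eq_mk]
      rw [hGf n c hc rfl, const, if_pos rfl] at key
      exact (MvPolynomial.C_injective _ _ (congrArg Prod.fst key)).symm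
    · have hf0 : f c = 0 := by
        by_contra hne
        exact hp (hf c hne).2.2
      rw [hf0]
      refine Finset.sum_eq_zero fun p _ => ?_
      show augF k (Lam.re k (DL k c.1 c.2.1 c.2.2 p)) * _ = 0
      by_cases hd : (pdeg p : ℤ) = E - 1
      · rcases fin_cases2 (vA p) with hvp | hvp
        · have h1 : ((MvPolynomial.C (1 : k) : Poly k), (0 : Poly k)) ∈ comp k 0 (vA p) := by
            rw [hvp, mem_comp0]
            exact ⟨mem_Hm.2 (MvPolynomial.isHomogeneous_C _ _), rfl⟩
          have h2 := (rho_supD k (DL_supD k hc p).1 h1).2 (by omega)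
          rw [rho_const, mul_one] at h2
          have h3 : augF k (Lam.re k (DL k c.1 c.2.1 c.2.2 p)) = 0 := by
            simpa using congrArg Prod.fst h2
          rw [h3, zero_mul]
        · have := (mem_comp_zero k (hG p.1.length p).1).2 hvp
          simp [this]
      · simp [hd]

end P195.Orth
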