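import Mathlib

/-!
# P195, orthogonality seat: homogeneous polynomials in two variables

Euler's identity and the Poincaré homotopy for the first-order operators `∂ i` and `y i`.
-/

namespace P195.Orth

section W

open MvPolynomial

variable (k : Type) [Field k]

/-- Polynomials in two variables. -/
abbrev Poly := MvPolynomial (Fin 2) k

/-- Homogeneous polynomials of integral degree. -/
noncomputable def Hm (n : ℤ) : Submodule k (Poly k) :=
  if 0 ≤ n then homogeneousSubmodule (Fin 2) k n.toNat else ⊥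

variable {k}

theorem mem_Hm {n : ℕ} {φ : Poly k} : φ ∈ Hm k n ↔ φ.IsHomogeneous n := by
  simp [Hm, mem_homogeneousSubmodule]

theorem mem_Hm_neg {n : ℤ} (h : n < 0) {φ : Poly k} : φ ∈ Hm k n ↔ φ = 0 := by
  simp [Hm, not_le.2 h]

theorem pderiv_mem {n : ℤ} {φ : Poly k} (h : φ ∈ Hm k n) (i : Fin 2) :
    pderiv i φ ∈ Hm k (n - 1) := by
  rcases lt_or_ge n 0 with hn | hn
  · rw [(mem_Hm_neg hn).1 h, map_zero]; exact zero_mem _
  obtain ⟨m, rfl⟩ := Int.eq_ofNat_of_zero_le hn
  rcases m with - | m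
  · rw [mem_Hm, ← totalDegree_zero_iff_isHomogeneous, totalDegree_eq_zero_iff_eq_C] at h
    rw [h, pderiv_C]
    exact zero_mem _
  · rw [mem_Hm] at h
    rw [show ((m + 1 : ℕ) : ℤ) - 1 = (m : ℤ) by omega, mem_Hm]
    exact h.pderiv

theorem X_mul_mem {n : ℤ} {φ : Poly k} (h : φ ∈ Hm k n) (i : Fin 2) :
    MvPolynomial.X i * φ ∈ Hm k (n + 1) := by
  rcases lt_or_ge n 0 with hn | hn
  · rw [(mem_Hm_neg hn).1 h, mul_zero]; exact zero_mem _
  obtain ⟨m, rfl⟩ := Int.eq_ofNat_of_zero_le hn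
  rw [mem_Hm] at h
  rw [show (m : ℤ) + 1 = ((1 + m : ℕ) : ℤ) by omega, mem_Hm]
  exact (isHomogeneous_X k i).mul h

/-- Euler's identity. -/
theorem euler {n : ℤ} {φ : Poly k} (h : φ ∈ Hm k n) :
    MvPolynomial.X 0 * pderiv 0 φ + MvPolynomial.X 1 * pderiv 1 φ = (n : k) • φ := by
  rcases lt_or_ge n 0 with hn | hn
  · simp [(mem_Hm_neg hn).1 h]
  obtain ⟨m, rfl⟩ := Int.eq_ofNat_of_zero_le hn
  have := (mem_Hm.1 h).sum_X_mul_pderiv
  rw [Fin.sum_univ_two] at this
  rw [this]
  simp [Nat.cast_smul_eq_nsmul]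

theorem div_euler {n : ℤ} {φ : Poly k} (h : φ ∈ Hm k n) :
    pderiv 0 (MvPolynomial.X 0 * φ) + pderiv 1 (MvPolynomial.X 1 * φ) = ((n + 2 : ℤ) : k) • φ := by
  have := euler h
  simp only [pderiv_mul, pderiv_X_self]
  push_cast
  rw [add_smul, ← this, two_smul]
  ring

theorem pderiv_comm' (i l : Fin 2) (φ : Poly k) : pderiv i (pderiv l φ) = pderiv l (pderiv i φ) := by
  induction φ using MvPolynomial.induction_on' with
  | monomial m r =>
    rcases eq_or_ne i l with rfl | hil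
    · rfl
    simp only [pderiv_monomial, Finsupp.coe_tsub, Pi.sub_apply, Finsupp.single_apply, if_neg hil,
      if_neg hil.symm, tsub_zero]
    congr 1
    · rw [tsub_right_comm]
    · ring
  | add p q hp hq => simp [hp, hq]

theorem pderiv_X_mul (i l : Fin 2) (φ : Poly k) :
    pderiv i (MvPolynomial.X l * φ) = (if l = i then φ else 0) + MvPolynomial.X l * pderiv i φ := by
  rw [pderiv_mul, pderiv_X, Pi.single_apply]
  split_ifs <;> ring

theorem cast_ne [CharZero k] {n : ℤ} (h : 0 < n) : ((n : k)) ≠ 0 := Int.cast_ne_zero.2 (by omega)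

/-- Poincaré: a curl-free row is a gradient. -/
theorem poincare {n : ℤ} (c : Fin 2 → Poly k) (hc : ∀ i, c i ∈ Hm k n)
    (h : pderiv 0 (c 1) = pderiv 1 (c 0)) (i : Fin 2) :
    pderiv i (MvPolynomial.X 0 * c 0 + MvPolynomial.X 1 * c 1) = ((n + 1 : ℤ) : k) • c i := by
  have e := euler (hc i)
  push_cast
  fin_cases i <;>
    simp only [map_add, pderiv_X_mul, Fin.zero_eta, Fin.mk_one, Fin.isValue, if_true, one_ne_zero,
      zero_ne_one, if_false, zero_add, add_smul, one_smul] at e ⊢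
  · rw [h, ← e]; ring
  · rw [← h, ← e]; ring

end W

end P195.Orth
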