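import Vale.Agent.P195.Orth.Defs
import Vale.Agent.P195.Orth.Poly

/-!
# P195, orthogonality seat: the Weyl representations

`W` carries all the weights: at the vertex `0` polynomials of degree `m`, at the vertex `1` of
degree `m - 1`; `x i` acts as `∂ i`, `p j` as `-y j`, `t` as one and all other generators as zero.
The bimodule sends the representation of weight `m` to rows over it, and `iota` embeds the
representation of weight `m + 1` there.
-/

namespace P195.Orth

open P195.Algebra P195.Model

variable (k : Type) [Field k]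

/-- The space of both vertices. -/
abbrev W := Poly k × Poly k

/-- The action of `x i`. -/
noncomputable def opX (i : Fin 2) : Module.End k (W k) :=
  LinearMap.inr k (Poly k) (Poly k) ∘ₗ (MvPolynomial.pderiv i).toLinearMap ∘ₗ LinearMap.fst k _ _

/-- The action of `p j`. -/
noncomputable def opP (j : Fin 2) : Module.End k (W k) :=
  -(LinearMap.inl k (Poly k) (Poly k) ∘ₗ LinearMap.mulLeft k (MvPolynomial.X j : Poly k)
    ∘ₗ LinearMap.snd k _ _)

/-- The values on the generators. -/
noncomputable def rhoGen : Gen → Module.End k (W k)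
  | .x i => opX k i
  | .p j => opP k j
  | _ => 0

/-- The representation. -/
noncomputable def rho : F k →ₐ[k] Module.End k (W k) :=
  ext 1 (rhoGen k) (fun _ => Commute.one_left _)

@[simp] theorem rho_tF : rho k (tF k) = 1 := ext_tF _ _ _
@[simp] theorem rho_gen (g : Gen) : rho k (gen k g) = rhoGen k g := ext_gen _ _ _ g
@[simp] theorem opX_apply (i : Fin 2) (w : W k) :
    opX k i w = (0, MvPolynomial.pderiv i w.1) := rfl
@[simp] theorem opP_apply (j : Fin 2) (w : W k) :
    opP k j w = (-(MvPolynomial.X j * w.2), 0) := by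
  simp [opP]

theorem rho_sg (a : F k) : rho k (sg k a) = rho k a := by
  induction a using F.induction with
  | one => simp
  | t => simp
  | gen g => rw [sg_gen, map_smul, rho_gen]; cases g <;> simp [rhoGen, Gen.deg]
  | mul a b ha hb => simp only [map_mul, ha, hb]
  | add a b ha hb => simp only [map_add, ha, hb]
  | smul c a ha => simp only [map_smul, ha]

/-- The representation kills every relation. -/
theorem rho_dF (a : F k) : rho k (dF k a) = 0 := by
  induction a using F.induction with
  | one =>
    have h : dF k (1 : F k) = 0 := by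
      have := d_mul (k := k) 1 1
      simpa using this
    rw [h, map_zero]
  | t => simp [d_tt]
  | gen g =>
    rw [show dF k (gen k g) = dX g from d_X g]
    rcases g with i | i | i | i | i <;> fin_cases i <;>
      (refine LinearMap.ext fun w => Prod.ext ?_ ?_) <;>
      simp [dX, rhoGen, show (X : Gen → F k) = gen k from rfl, show (tt : F k) = tF k from rfl,
        pderiv_X_mul, pderiv_comm' (0 : Fin 2) 1] <;>
      try ring
  | mul a b ha hb => rw [show dF k (a * b) = _ from d_mul a b]; simp [ha, hb]
  | add a b ha hb => simp [ha, hb]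
  | smul c a ha => simp [ha]

/-- `Φ` without `u`. -/
noncomputable def Mre : F k →ₐ[k] Matrix LC LC (F k) :=
  (TrivSqZeroExt.fstHom k (F k) (Tw (sg1 k))).mapMatrix.comp (phiF k)

theorem Mre_apply (a : F k) (l l' : LC) : Mre k a l l' = Lam.re k (phiF k a l l') := rfl

theorem Mre_gen (g : Gen) (l l' : LC) : Mre k (gen k g) l l' = Lam.re k (phiGen k g l l') := by
  rw [Mre_apply, phiF_gen]

theorem re_phiL (x : Lam k) (l l' : LC) :
    Lam.re k (phiL k x l l') = Mre k (Lam.re k x) l l' := by
  rw [phiL_apply, phiFun, Matrix.add_apply, map_add, phiU, Matrix.mul_diagonal]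
  simp [Mre_apply, Lam.u]

theorem sum_cells {A : Type} [AddCommMonoid A] (f : LC → A) :
    ∑ c, f c = f .E + f (.F 0) + f (.F 1) + f .H := by
  have h : (Finset.univ : Finset LC) = {.E, .F 0, .F 1, .H} := by decide
  rw [h, Finset.sum_insert (by simp), Finset.sum_insert (by simp), Finset.sum_insert (by simp),
    Finset.sum_singleton]
  abel

/-- The embedding of the weight `m + 1` into rows over the weight `m`. -/
noncomputable def iota : W k →ₗ[k] (LC → W k) :=
  LinearMap.pi fun
    | .E => LinearMap.inl k _ _ ∘ₗ LinearMap.snd k _ _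
    | .F i => LinearMap.inl k _ _ ∘ₗ (MvPolynomial.pderiv i).toLinearMap ∘ₗ LinearMap.fst k _ _
    | .H => 0

@[simp] theorem iota_E (w : W k) : iota k w .E = (w.2, 0) := rfl
@[simp] theorem iota_F (i : Fin 2) (w : W k) :
    iota k w (.F i) = (MvPolynomial.pderiv i w.1, 0) := rfl
@[simp] theorem iota_H (w : W k) : iota k w .H = 0 := rfl

/-- `Φ` restricted to the image of `iota`. -/
theorem rho_Mre_iota (a : F k) (w : W k) (l : LC) :
    ∑ l', rho k (Mre k a l l') (iota k w l') = iota k (rho k a w) l := by
  induction a using F.induction generalizing w l with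
  | one =>
    rw [Finset.sum_eq_single l]
    · simp
    · intro b _ hb; simp [Ne.symm hb]
    · simp
  | t =>
    rw [Finset.sum_eq_single l]
    · simp [Mre_apply, phiF_tF]
    · intro b _ hb
      simp [Mre_apply, phiF_tF, Ne.symm hb]
    · simp
  | gen g =>
    simp only [Mre_gen, sum_cells]
    rcases g with i | i | i | i | i <;> rcases l with _ | j | _ <;> fin_cases i <;>
      (try fin_cases j) <;>
      simp [phiGen, rhoGen, gP, gX, gR, gQ, gZ, apply_ite (Lam.re k), pderiv_X_mul,
        Prod.ext_iff] <;>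
      try ring
  | mul a b ha hb =>
    have h : ∀ i, ∑ l', rho k (Mre k b i l') (iota k w l') = iota k (rho k b w) i := fun i => hb w i
    calc ∑ l', rho k (Mre k (a * b) l l') (iota k w l')
        = ∑ l', ∑ i, rho k (Mre k a l i) (rho k (Mre k b i l') (iota k w l')) := by
          refine Finset.sum_congr rfl fun l' _ => ?_
          simp [Matrix.mul_apply]
      _ = ∑ i, rho k (Mre k a l i) (iota k (rho k b w) i) := by
          rw [Finset.sum_comm]
          simp only [← map_sum, h]
      _ = iota k (rho k (a * b) w) l := by rw [ha, map_mul]; rfl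
  | add a b ha hb => simp [Finset.sum_add_distrib, ha, hb]
  | smul c a ha => simp [← Finset.smul_sum, ha]

/-- The row of `H` is the augmentation. -/
theorem rho_Mre_H (a : F k) (l' : LC) :
    rho k (Mre k a .H l') = if l' = LC.H then algebraMap k _ (augF k a) else 0 := by
  induction a using F.induction generalizing l' with
  | one => rcases l' with _ | j | _ <;> simp [Matrix.one_apply]
  | t => rcases l' with _ | j | _ <;> simp [Mre_apply, phiF_tF, augF, ext_tF]
  | gen g =>
    rw [Mre_gen]
    rcases g with i | i | i | i | i <;> rcases l' with _ | j | _ <;> fin_cases i <;>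
      simp [phiGen, rhoGen, augF, gP, gX, gR, gQ, gZ, ext_gen]
  | mul a b ha hb =>
    simp only [map_mul, Matrix.mul_apply, map_sum]
    rw [Finset.sum_eq_single LC.H]
    · rw [ha, hb, if_pos rfl]
      split_ifs <;> simp
    · intro i _ hi; rw [ha, if_neg hi, zero_mul]
    · simp
  | add a b ha hb =>
    simp only [map_add, Matrix.add_apply, ha, hb]
    split_ifs <;> simp
  | smul c a ha =>
    simp only [map_smul, Matrix.smul_apply, ha]
    split_ifs <;> simp [Algebra.algebraMap_eq_smul_one, smul_smul]

/-- On constants at the vertex `0` the representation is the augmentation. -/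
theorem rho_const (a : F k) (r : k) :
    rho k a (MvPolynomial.C r, 0) = (MvPolynomial.C (augF k a * r), 0) := by
  induction a using F.induction generalizing r with
  | one => simp
  | t => simp [augF, ext_tF]
  | gen g => rcases g with i | i | i | i | i <;> simp [rhoGen, augF, ext_gen, ← Prod.zero_eq_mk]
  | mul a b ha hb => rw [map_mul, Module.End.mul_apply, hb, ha, map_mul (augF k), mul_assoc]
  | add a b ha hb => simp [ha, hb, add_mul]
  | smul c a ha => simp [ha, MvPolynomial.smul_eq_C_mul, mul_assoc]

/-- The weight `m` at a vertex. -/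
noncomputable def comp (m : ℕ) (a : Fin 2) : Submodule k (W k) :=
  if a = 0 then (Hm k m).prod ⊥ else (⊥ : Submodule k (Poly k)).prod (Hm k ((m : ℤ) - 1))

theorem mem_comp0 {m : ℕ} {w : W k} : w ∈ comp k m 0 ↔ w.1 ∈ Hm k m ∧ w.2 = 0 := by
  simp [comp, Submodule.mem_prod]

theorem mem_comp1 {m : ℕ} {w : W k} :
    w ∈ comp k m 1 ↔ w.1 = 0 ∧ w.2 ∈ Hm k ((m : ℤ) - 1) := by
  simp [comp, Submodule.mem_prod]

theorem rhoGen_comp (g : Gen) {m : ℕ} {w : W k} (hw : w ∈ comp k m g.src) :
    rhoGen k g w ∈ comp k m g.tgt := by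
  rcases g with i | i | i | i | i <;>
    simp only [rhoGen, LinearMap.zero_apply, zero_mem]
  · obtain ⟨h1, -⟩ := (mem_comp0 k).1 hw
    exact (mem_comp1 k).2 ⟨rfl, pderiv_mem h1 i⟩
  · obtain ⟨-, h2⟩ := (mem_comp1 k).1 hw
    refine (mem_comp0 k).2 ⟨?_, by simp⟩
    simpa using neg_mem (X_mul_mem h2 i)

theorem rho_word (w : List Gen) : ∀ {a' a : Fin 2}, Path a' a w → ∀ {m : ℕ} {v : W k},
    v ∈ comp k m a →
    rho k (MonoidAlgebra.single ((FreeMonoid.ofList w, 1) : M) 1) v ∈ comp k m a' ∧
      (wdeg w ≠ 0 → rho k (MonoidAlgebra.single ((FreeMonoid.ofList w, 1) : M) 1) = 0) := by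
  induction w with
  | nil =>
    intro a' a hp m v hv
    obtain rfl : a' = a := hp
    have h : (MonoidAlgebra.single ((FreeMonoid.ofList [], 1) : M) (1 : k)) = 1 := rfl
    rw [h, map_one]
    exact ⟨hv, fun h => absurd rfl h⟩
  | cons g w ih =>
    intro a' a hp m v hv
    obtain ⟨hg, hw⟩ := hp
    subst hg
    have e : MonoidAlgebra.single ((FreeMonoid.ofList (g :: w), 1) : M) (1 : k)
        = gen k g * MonoidAlgebra.single ((FreeMonoid.ofList w, 1) : M) 1 := by
      simp only [gen, Algebra.X, MonoidAlgebra.single_mul_single]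
      simp [FreeMonoid.ofList_cons]
    rw [e, map_mul, rho_gen]
    refine ⟨rhoGen_comp k g (ih hw hv).1, fun h => ?_⟩
    by_cases h0 : wdeg w = 0
    · have hgd : g.deg ≠ 0 := fun hg => h (by simp [wdeg] at h0 ⊢; omega)
      cases g <;> simp [Gen.deg, rhoGen] at hgd ⊢
    · rw [(ih hw hv).2 h0, mul_zero]

/-- The coboundary of one layer of six cells, with the link from `cz` to the next `c0`. -/
noncomputable def layer (g : ℕ → BC → W k) (j : ℕ) : BC → W k
  | .c0 => 0
  | .cx i => opX k i (g j .c0)
  | .cr i => opX k 1 (opP k i (g j (.cx 0))) - opX k 0 (opP k i (g j (.cx 1)))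
      + if i = 0 then -g j (.cx 1) else g j (.cx 0)
  | .cz => opP k 1 (g j (.cr 0)) - opP k 0 (g j (.cr 1)) + g (j + 1) .c0

/-- The link and the six cells are exact in positive weight. -/
theorem layer_exact [CharZero k] {m : ℕ} (hm : 0 < m) (φ : ℕ → BC → W k)
    (hφ : ∀ j b, φ j b ∈ comp k m b.vtx.1) (h : ∀ j b, layer k φ j b = 0) :
    ∃ g : ℕ → BC → W k, (∀ j b, g j b ∈ comp k m b.vtx.1) ∧ ∀ j b, layer k g j b = φ j b := by
  have hmk : ((m : ℤ) : k) ≠ 0 := cast_ne (by omega)
  set s : k := ((m : ℤ) : k)⁻¹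
  have a1 : ∀ j i, (φ j (.cx i)).1 = 0 ∧ (φ j (.cx i)).2 ∈ Hm k ((m : ℤ) - 1) :=
    fun j i => (mem_comp1 k).1 (hφ j (.cx i))
  have r1 : ∀ j i, (φ j (.cr i)).1 = 0 ∧ (φ j (.cr i)).2 ∈ Hm k ((m : ℤ) - 1) :=
    fun j i => (mem_comp1 k).1 (hφ j (.cr i))
  have z1 : ∀ j, (φ j .cz).1 ∈ Hm k (m : ℤ) ∧ (φ j .cz).2 = 0 :=
    fun j => (mem_comp0 k).1 (hφ j .cz)
  have c1 : ∀ j, φ j .c0 = 0 := fun j => by
    obtain ⟨u1, u2⟩ := (mem_comp0 k).1 (hφ j .c0)
    refine Prod.ext ?_ u2
    have e : ∀ i, MvPolynomial.pderiv i (φ j .c0).1 = 0 := fun i => by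
      simpa [layer] using congrArg Prod.snd (h j (.cx i))
    have := euler u1
    rw [e, e, mul_zero, mul_zero, add_zero] at this
    exact (smul_eq_zero.1 this.symm).resolve_left hmk
  have hcurl : ∀ j, MvPolynomial.pderiv 0 (φ j (.cx 1)).2
      = MvPolynomial.pderiv 1 (φ j (.cx 0)).2 := fun j => by
    have e : ∀ i : Fin 2, MvPolynomial.X i * (MvPolynomial.pderiv 0 (φ j (.cx 1)).2
        - MvPolynomial.pderiv 1 (φ j (.cx 0)).2) = 0 := fun i => by
      have := congrArg Prod.snd (h j (.cr i))
      simp only [layer] at this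
      fin_cases i <;> simp [pderiv_X_mul] at this <;>
        simp only [Fin.zero_eta, Fin.mk_one, Fin.isValue] <;> linear_combination this
    have := (mul_eq_zero.1 (e 0)).resolve_left (MvPolynomial.X_ne_zero 0)
    exact sub_eq_zero.1 this
  have hR : ∀ j, MvPolynomial.X 0 * (φ j (.cr 1)).2 = MvPolynomial.X 1 * (φ j (.cr 0)).2 :=
    fun j => by
      have := congrArg Prod.fst (h j .cz)
      simp [layer, c1] at this
      linear_combination this
  -- the potential, the curl and the last correction
  set f : ℕ → Poly k := fun j =>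
    s • (MvPolynomial.X 0 * (φ j (.cx 0)).2 + MvPolynomial.X 1 * (φ j (.cx 1)).2) with hf
  have hfd : ∀ j, f j ∈ Hm k (m : ℤ) := fun j => by
    refine Submodule.smul_mem _ _ (add_mem ?_ ?_)
    · simpa using X_mul_mem (a1 j 0).2 0
    · simpa using X_mul_mem (a1 j 1).2 1
  set q : ℕ → Poly k := fun j => s • (MvPolynomial.pderiv 0 (φ j (.cr 0)).2
      + MvPolynomial.pderiv 1 (φ j (.cr 1)).2) with hq
  have hqd : ∀ j, q j ∈ Hm k ((m : ℤ) - 1 - 1) := fun j =>
    Submodule.smul_mem _ _ (add_mem (pderiv_mem (r1 j 0).2 0) (pderiv_mem (r1 j 1).2 1))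
  set Z : ℕ → Poly k := fun j => (φ j .cz).1 - f (j + 1) with hZ
  have hZd : ∀ j, Z j ∈ Hm k (m : ℤ) := fun j => sub_mem (z1 j).1 (hfd _)
  let g : ℕ → BC → W k := fun j b => match b with
    | .c0 => (f j, 0)
    | .cx i => (0, s • if i = 1 then MvPolynomial.X 0 * q j else -(MvPolynomial.X 1 * q j))
    | .cr i => (0, s • if i = 1 then MvPolynomial.pderiv 0 (Z j)
        else -MvPolynomial.pderiv 1 (Z j))
    | .cz => 0
  refine ⟨g, fun j b => ?_, fun j b => ?_⟩
  · rcases b with _ | i | i | _
    · exact (mem_comp0 k).2 ⟨hfd j, rfl⟩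
    · refine (mem_comp1 k).2 ⟨rfl, Submodule.smul_mem _ _ ?_⟩
      split_ifs
      · simpa using X_mul_mem (hqd j) 0
      · exact neg_mem (by simpa using X_mul_mem (hqd j) 1)
    · refine (mem_comp1 k).2 ⟨rfl, Submodule.smul_mem _ _ ?_⟩
      split_ifs
      · exact pderiv_mem (hZd j) 0
      · exact neg_mem (pderiv_mem (hZd j) 1)
    · exact zero_mem _
  · rcases b with _ | i | i | _
    · simp [layer, c1]
    · have := poincare (fun i => (φ j (.cx i)).2) (fun i => (a1 j i).2) (hcurl j) i
      rw [show (m : ℤ) - 1 + 1 = m by ring] at this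
      refine Prod.ext (by simp [layer, (a1 j i).1]) ?_
      simp only [layer, opX_apply, g, hf, Derivation.map_smul]
      rw [this, inv_smul_smul₀ hmk]
    · have hy : MvPolynomial.X i * q j = (φ j (.cr i)).2 := by
        rw [hq, mul_smul_comm, inv_smul_eq_iff₀ hmk]
        have e := euler (r1 j i).2
        have s0 := congrArg (MvPolynomial.pderiv (0 : Fin 2)) (hR j)
        have s1 := congrArg (MvPolynomial.pderiv (1 : Fin 2)) (hR j)
        simp only [pderiv_X_mul, Fin.isValue, if_true, one_ne_zero, zero_ne_one, if_false,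
          zero_add] at s0 s1
        push_cast at e
        rw [sub_smul, one_smul] at e
        push_cast
        fin_cases i <;> simp only [Fin.zero_eta, Fin.mk_one, Fin.isValue] at e ⊢
        · linear_combination e + s1
        · linear_combination e - s0
      have hd := div_euler (hqd j)
      rw [show (m : ℤ) - 1 - 1 + 2 = m by ring] at hd
      refine Prod.ext ?_ ?_
      · simp [layer, g, (r1 j i).1]
        split_ifs <;> simp
      · have key : MvPolynomial.pderiv 0 (g j (.cx 1)).2 - MvPolynomial.pderiv 1 (g j (.cx 0)).2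
            = q j := by
          simp only [g, if_true, zero_ne_one, if_false, Fin.isValue, Derivation.map_smul, map_neg,
            smul_neg, sub_neg_eq_add, ← smul_add, hd]
          rw [inv_smul_smul₀ hmk]
        rw [← hy, ← key]
        simp only [layer]
        fin_cases i <;> simp [g, pderiv_X_mul, MvPolynomial.smul_eq_C_mul] <;> ring
    · have e := euler (hZd j)
      refine Prod.ext ?_ ?_
      · have key : MvPolynomial.X 0 * (g j (.cr 1)).2 - MvPolynomial.X 1 * (g j (.cr 0)).2
            = Z j := by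
          simp only [g, if_true, zero_ne_one, if_false, Fin.isValue, mul_smul_comm, mul_neg,
            smul_neg, sub_neg_eq_add, ← smul_add, e]
          rw [inv_smul_smul₀ hmk]
        simp [layer] at key ⊢
        simp only [g, hZ] at key ⊢
        linear_combination key
      · simp [layer, g, (z1 j).2]

end P195.Orth
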